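import Mathlib

/-!
A bound of Jacobsthal type when the small prime divisors are few.
-/

open Finset

namespace Vale.Agent.P013

/-- Integers in a window, divisible by `d`, avoiding all primes of `T`. -/
def sifted (T : Finset ℕ) (d : ℕ) (a : ℤ) (m : ℕ) : Finset ℕ :=
  (range m).filter fun i => (d : ℤ) ∣ a + i ∧ ∀ p ∈ T, ¬ (p : ℤ) ∣ a + i

theorem count_dvd (d : ℕ) (hd : 0 < d) (a : ℤ) (m : ℕ) :
    |((sifted ∅ d a m).card : ℝ) - m / d| ≤ 1 := by
  have he : (sifted ∅ d a m).card = ((Ico a (a + m)).filter fun x => (d : ℤ) ∣ x).card := by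
    refine card_bij (fun i _ => a + i) ?_ ?_ ?_
    · intro i hi
      simp [sifted] at hi ⊢
      exact ⟨hi.1, hi.2⟩
    · intro i _ j _ h; simpa using h
    · intro x hx
      simp at hx
      refine ⟨(x - a).toNat, ?_, by omega⟩
      simp [sifted]
      refine ⟨by omega, ?_⟩
      rw [max_eq_left (by omega : (0:ℤ) ≤ x - a)]
      simpa using hx.2
  have hd' : (0 : ℤ) < d := by exact_mod_cast hd
  have h := Int.Ico_filter_dvd_card a (a + m) hd'
  rw [← he] at h
  set u : ℚ := ((a + m : ℤ) : ℚ) / (d : ℤ) with hu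
  set v : ℚ := (a : ℚ) / (d : ℤ) with hv
  have huv : u - v = (m : ℚ) / d := by rw [hu, hv]; push_cast; ring
  have h0 : ⌈v⌉ ≤ ⌈u⌉ := Int.ceil_mono (by
    have : (0 : ℚ) ≤ m / d := by positivity
    linarith)
  rw [max_eq_left (by linarith)] at h
  have h' : ((sifted ∅ d a m).card : ℚ) = ((⌈u⌉ : ℤ) : ℚ) - ((⌈v⌉ : ℤ) : ℚ) := by exact_mod_cast h
  have hq : |((sifted ∅ d a m).card : ℚ) - m / d| ≤ 1 := by
    have := Int.le_ceil u; have := Int.ceil_lt_add_one u
    have := Int.le_ceil v; have := Int.ceil_lt_add_one v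
    rw [abs_le]; constructor <;> linarith
  have := (Rat.cast_le (K := ℝ)).2 hq
  push_cast at this
  exact this

theorem sifted_approx (T : Finset ℕ) : (∀ p ∈ T, Nat.Prime p) → ∀ (d : ℕ), 0 < d →
    (∀ p ∈ T, ¬ p ∣ d) → ∀ (a : ℤ) (m : ℕ),
    |((sifted T d a m).card : ℝ) - m / d * ∏ p ∈ T, (1 - 1 / (p : ℝ))| ≤ 2 ^ T.card := by
  induction T using Finset.induction_on with
  | empty => intro _ d hd _ a m; simpa using count_dvd d hd a m
  | @insert q T hq ih =>
    intro hT d hd hTd a m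
    have hqp : Nat.Prime q := hT q (mem_insert_self _ _)
    have hT' : ∀ p ∈ T, Nat.Prime p := fun p hp => hT p (mem_insert_of_mem hp)
    have hTdq : ∀ p ∈ T, ¬ p ∣ d * q := fun p hp h => by
      rcases (hT' p hp).dvd_mul.1 h with h | h
      · exact hTd p (mem_insert_of_mem hp) h
      · exact hq (((Nat.prime_dvd_prime_iff_eq (hT' p hp) hqp).1 h) ▸ hp)
    have hcop : IsCoprime (d : ℤ) (q : ℤ) := Nat.isCoprime_iff_coprime.2
      ((hqp.coprime_iff_not_dvd.2 (hTd q (mem_insert_self _ _))).symm)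
    have hsplit : (sifted (insert q T) d a m).card + (sifted T (d * q) a m).card =
        (sifted T d a m).card := by
      rw [← card_filter_add_card_filter_not (s := sifted T d a m)
        (fun i : ℕ => ¬ (q : ℤ) ∣ a + i)]
      congr 2
      · ext i; simp [sifted]; tauto
      · ext i
        simp [sifted]
        constructor
        · rintro ⟨h1, h2, h3⟩
          exact ⟨⟨h1, dvd_trans (Dvd.intro _ rfl) h2, h3⟩, dvd_trans (Dvd.intro_left _ rfl) h2⟩
        · rintro ⟨⟨h1, h2, h3⟩, h4⟩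
          exact ⟨h1, hcop.mul_dvd h2 h4, h3⟩
    have h1 := abs_le.1 (ih hT' d hd (fun p hp => hTd p (mem_insert_of_mem hp)) a m)
    have h2 := abs_le.1 (ih hT' (d * q) (Nat.mul_pos hd hqp.pos) hTdq a m)
    have hs : ((sifted (insert q T) d a m).card : ℝ) + (sifted T (d * q) a m).card =
        (sifted T d a m).card := by exact_mod_cast hsplit
    rw [prod_insert hq, card_insert_of_notMem hq, pow_succ]
    set P := ∏ p ∈ T, (1 - 1 / (p : ℝ))
    have he : (m : ℝ) / d * ((1 - 1 / (q : ℝ)) * P) = m / d * P - m / ((d * q : ℕ) : ℝ) * P := by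
      push_cast; ring
    rw [he, abs_le]
    constructor <;> linarith

theorem prod_lower (S : Finset ℕ) :
    (∀ p ∈ S, Nat.Prime p) → 1 / ((S.card : ℝ) + 1) ≤ ∏ p ∈ S, (1 - 1 / (p : ℝ)) := by
  induction S using Finset.induction_on_max with
  | empty => simp
  | insert q S hlt ih =>
    intro hS
    have hq : q ∉ S := fun h => lt_irrefl _ (hlt q h)
    have hS' : ∀ p ∈ S, Nat.Prime p := fun p hp => hS p (mem_insert_of_mem hp)
    have hc : S.card + 2 ≤ q := by
      have := card_le_card (show S ⊆ Ico 2 q from fun p hp =>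
        mem_Ico.2 ⟨(hS' p hp).two_le, hlt p hp⟩)
      rw [Nat.card_Ico] at this
      have := (hS q (mem_insert_self _ _)).two_le
      omega
    have hc' : (S.card : ℝ) + 2 ≤ q := by exact_mod_cast hc
    rw [prod_insert hq, card_insert_of_notMem hq]
    have h0 : (0 : ℝ) ≤ 1 - 1 / ((S.card : ℝ) + 2) := by
      rw [sub_nonneg, div_le_one (by positivity)]
      linarith [(Nat.cast_nonneg S.card : (0:ℝ) ≤ _)]
    calc 1 / (((S.card + 1 : ℕ) : ℝ) + 1)
        = (1 - 1 / ((S.card : ℝ) + 2)) * (1 / ((S.card : ℝ) + 1)) := by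
          push_cast; field_simp; ring
      _ ≤ _ := mul_le_mul (by gcongr) (ih hS') (by positivity)
          (h0.trans (by gcongr))

theorem exists_coprime (n : ℕ) (hn : n ≠ 0) (S : Finset ℕ) (hS : S ⊆ n.primeFactors)
    (hs : (S.card + 1) * 2 ^ S.card ≤ n.primeFactors.card)
    (hL : ∑ p ∈ n.primeFactors \ S, (1 : ℝ) / p ≤ 1 / 2) (a : ℤ) :
    ∃ i : ℕ, i < 5 * n.primeFactors.card ^ 2 ∧ Int.gcd (a + i) n = 1 := by
  set k := n.primeFactors.card with hk
  set m := 5 * k ^ 2 with hm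
  have hSp : ∀ p ∈ S, Nat.Prime p := fun p hp => Nat.prime_of_mem_primeFactors (hS hp)
  have hLp : ∀ p ∈ n.primeFactors \ S, Nat.Prime p := fun p hp =>
    Nat.prime_of_mem_primeFactors (mem_sdiff.1 hp).1
  by_contra hcon
  push Not at hcon
  have hcov : sifted S 1 a m ⊆ (n.primeFactors \ S).biUnion fun p => sifted S p a m := by
    intro i hi
    simp [sifted] at hi
    obtain ⟨p, hp, hpd⟩ := Nat.exists_prime_and_dvd (hcon i hi.1)
    have h1 : (p : ℤ) ∣ a + i := (Int.natCast_dvd_natCast.2 hpd).trans (Int.gcd_dvd_left _ _)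
    have h2 : p ∣ n := Int.natCast_dvd_natCast.1
      ((Int.natCast_dvd_natCast.2 hpd).trans (Int.gcd_dvd_right _ _))
    refine mem_biUnion.2 ⟨p, mem_sdiff.2 ⟨Nat.mem_primeFactors.2 ⟨hp, h2, hn⟩,
      fun h => hi.2 p h h1⟩, ?_⟩
    simp [sifted]
    exact ⟨hi.1, h1, hi.2⟩
  set P := ∏ p ∈ S, (1 - 1 / (p : ℝ)) with hP
  have hP1 := prod_lower S hSp
  have hsum : ((sifted S 1 a m).card : ℝ) ≤
      ∑ p ∈ n.primeFactors \ S, ((sifted S p a m).card : ℝ) := by
    exact_mod_cast (card_le_card hcov).trans card_biUnion_le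
  have hlow := (abs_le.1 (sifted_approx S hSp 1 one_pos
    (fun p hp h => (hSp p hp).one_lt.ne' (Nat.dvd_one.1 h)) a m)).1
  have hup : ∀ p ∈ n.primeFactors \ S,
      ((sifted S p a m).card : ℝ) ≤ m * P * (1 / p) + 2 ^ S.card := fun p hp => by
    have := (abs_le.1 (sifted_approx S hSp p (hLp p hp).pos (fun q hq h =>
      (mem_sdiff.1 hp).2 (((Nat.prime_dvd_prime_iff_eq (hSp q hq) (hLp p hp)).1 h) ▸ hq)) a m)).2
    rw [show (m : ℝ) * P * (1 / p) = m / p * P by ring]
    linarith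
  have hbig := hsum.trans (sum_le_sum hup)
  rw [sum_add_distrib, ← mul_sum, sum_const, nsmul_eq_mul] at hbig
  have hcard : ((n.primeFactors \ S).card : ℝ) ≤ k := by
    exact_mod_cast card_le_card (sdiff_subset)
  have hP0 : 0 ≤ P := le_trans (by positivity) hP1
  have h3 : (m : ℝ) * P * ∑ p ∈ n.primeFactors \ S, (1 : ℝ) / p ≤ m * P * (1 / 2) :=
    mul_le_mul_of_nonneg_left hL (by positivity)
  have h4 := mul_le_mul_of_nonneg_right hcard (show (0 : ℝ) ≤ 2 ^ S.card by positivity)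
  have h5 : (m : ℝ) * (1 / ((S.card : ℝ) + 1)) ≤ m * P :=
    mul_le_mul_of_nonneg_left hP1 (by positivity)
  have hkm : (m : ℝ) * P / 2 ≤ ((k : ℝ) + 1) * 2 ^ S.card := by
    simp only [Nat.cast_one, div_one] at hlow
    linarith
  have h6 : (m : ℝ) ≤ 2 * ((k : ℝ) + 1) * k := by
    have hs' : ((S.card : ℝ) + 1) * 2 ^ S.card ≤ k := by exact_mod_cast hs
    rw [mul_one_div, div_le_iff₀ (by positivity)] at h5
    nlinarith
  have h7 : (1 : ℝ) ≤ k := by
    exact_mod_cast le_trans (Nat.one_le_iff_ne_zero.2 (by positivity)) hs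
  rw [hm] at h6
  push_cast at h6
  nlinarith

end Vale.Agent.P013
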